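import Vale.Agent.P225.SU2.Index

/-!
P225, module D: the real structure on monomials, the coupling as a function of numbers, and
exponentials acting on eigenvectors.
-/

noncomputable section

namespace Vale.Agent.P225

open NormedSpace Matrix SU2 Polynomial
open scoped ComplexOrder Matrix.Norms.L2Operator Quaternion

theorem conjJ_apply (a : ℕ) (k i : Fin (a + 1)) :
    conjJ a k i = if (k : ℕ) = a - i then (-1 : ℂ) ^ (i : ℕ) else 0 := by
  have hi : (i : ℕ) ≤ a := Nat.lt_succ_iff.1 i.2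
  have hα : qα (imUnit 1) = 0 := by simp [qα, imUnit]; rfl
  have hβ : qβ (imUnit 1) = 1 := by simp [qβ, imUnit]; rfl
  rw [conjJ, rep, hα, hβ, star_zero, star_one, map_zero, map_one, zero_mul, zero_sub, one_mul,
    add_zero, show (-1 : ℂ[X]) ^ (i : ℕ) = C ((-1 : ℂ) ^ (i : ℕ)) by simp, coeff_C_mul_X_pow]
  split_ifs with h
  · rw [h, Nat.choose_symm hi, div_self (by exact_mod_cast (Nat.choose_pos hi).ne')]
    simp
  · simp

theorem exists_midx {t : Lbl} (G : Fin 3) {p q l : ℕ} (hp : p < t (G + 1) + 1)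
    (hq : q < t (G + 2) + 1) (hl : l < t G + 1) :
    ∃ m : MIdx t, (m (G + 1) : ℕ) = p ∧ (m (G + 2) : ℕ) = q ∧ (m G : ℕ) = l := by
  fin_cases G
  · exact ⟨Fin.cons ⟨l, hl⟩ (Fin.cons ⟨p, hp⟩ (Fin.cons ⟨q, hq⟩ finZeroElim)), rfl, rfl, rfl⟩
  · exact ⟨Fin.cons ⟨q, hq⟩ (Fin.cons ⟨l, hl⟩ (Fin.cons ⟨p, hp⟩ finZeroElim)), rfl, rfl, rfl⟩
  · exact ⟨Fin.cons ⟨p, hp⟩ (Fin.cons ⟨q, hq⟩ (Fin.cons ⟨l, hl⟩ finZeroElim)), rfl, rfl, rfl⟩

theorem coupN_eq {t : Lbl} (G : Fin 3) (m : MIdx t) :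
    coupN t G (m (G + 1)) (m (G + 2)) (m G) = (Real.sqrt (t G + 1) : ℂ) * SU2.inv t m := by
  rw [coupN, dif_pos ⟨(m (G + 1)).2, (m (G + 2)).2, (m G).2⟩]
  simp only [coup, Fin.eta]
  rw [Finset.sum_eq_single m]
  · simp
  · intro n _ hn
    rw [if_neg]
    rintro ⟨h0, h1, h2⟩
    apply hn
    funext k
    fin_cases G <;> fin_cases k <;> first | exact h0 | exact h1 | exact h2
  · simp

theorem coupN_eq_zero {t : Lbl} {G : Fin 3} {p q l : ℕ}
    (h : ¬ (p < t (G + 1) + 1 ∧ q < t (G + 2) + 1 ∧ l < t G + 1)) : coupN t G p q l = 0 :=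
  dif_neg h

theorem coupN_shift (t : Lbl) (G : Fin 3) (p q l : ℕ) :
    coupN (fun k => t (k + 1)) G p q l = coupN t (G + 1) p q l := by
  by_cases h : p < t (G + 1 + 1) + 1 ∧ q < t (G + 1 + 2) + 1 ∧ l < t (G + 1) + 1
  · obtain ⟨m, rfl, rfl, rfl⟩ := exists_midx (G + 1) h.1 h.2.1 h.2.2
    rw [coupN_eq, ← inv_cyc t m]
    have := coupN_eq (t := fun k => t (k + 1)) G (fun k => m (k + 1))
    fin_cases G <;> exact this
  · rw [coupN_eq_zero h, coupN_eq_zero]
    fin_cases G <;> exact h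

theorem coupN_apply {t : Lbl} (u : Fin (t (0 + 1) + 1) × Fin (t (0 + 2) + 1))
    (l : Fin (t 0 + 1)) : coupN t 0 u.1 u.2 l = coup t 0 u l := by
  rw [coupN, dif_pos ⟨u.1.2, u.2.2, l.2⟩]

/-- The sum of the multiplicities of the third label. -/
theorem sum_third_label (a c : ℕ) :
    ∑ v ∈ (Finset.range (a + c + 1)).filter (fun v => a ≤ v + c ∧ c ≤ v + a ∧ Even (v + a + c)),
      (v + 1) = (a + 1) * (c + 1) := by
  have key : ∀ d m : ℕ, ∑ s ∈ Finset.range (m + 1), (d + 2 * s + 1) = (m + 1) * (d + m + 1) := by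
    intro d m
    induction m with
    | zero => simp
    | succ m ih => rw [Finset.sum_range_succ, ih]; ring
  have hbij : ∑ s ∈ Finset.range (min a c + 1), (max a c - min a c + 2 * s + 1) =
      ∑ v ∈ (Finset.range (a + c + 1)).filter (fun v => a ≤ v + c ∧ c ≤ v + a ∧ Even (v + a + c)),
        (v + 1) := by
    refine Finset.sum_nbij' (fun s => max a c - min a c + 2 * s)
      (fun v => (v - (max a c - min a c)) / 2) ?_ ?_ ?_ ?_ ?_
    · intro s hs
      simp only [Finset.mem_filter, Finset.mem_range, Nat.even_iff] at hs ⊢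
      omega
    · intro v hv
      simp only [Finset.mem_filter, Finset.mem_range, Nat.even_iff] at hv ⊢
      omega
    · intro s hs
      simp only [Finset.mem_range] at hs ⊢
      omega
    · intro v hv
      simp only [Finset.mem_filter, Finset.mem_range, Nat.even_iff] at hv ⊢
      omega
    · intro s _; rfl
  rw [← hbij, key]
  rcases le_total a c with h | h
  · rw [max_eq_right h, min_eq_left h, Nat.sub_add_cancel h]
  · rw [max_eq_left h, min_eq_right h, Nat.sub_add_cancel h, mul_comm]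

variable {n : Type*} [Fintype n] [DecidableEq n]

/-- An exponential acts on an eigenvector by the exponential of the eigenvalue. -/
theorem exp_mulVec_eigen (M : Matrix n n ℂ) {v : n → ℂ} {c : ℂ} (h : M *ᵥ v = c • v) :
    exp M *ᵥ v = Complex.exp c • v := by
  have hpow : ∀ k : ℕ, (M ^ k) *ᵥ v = c ^ k • v := by
    intro k
    induction k with
    | zero => simp
    | succ k ih => rw [pow_succ, ← mulVec_mulVec, h, mulVec_smul, ih, smul_smul, pow_succ']
  let q : Matrix n n ℂ →L[ℂ] (n → ℂ) := LinearMap.toContinuousLinearMap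
    { toFun := fun A => A *ᵥ v
      map_add' := fun A B => add_mulVec A B v
      map_smul' := fun r A => smul_mulVec r A v }
  have h1 := (exp_series_hasSum_exp' (𝕂 := ℂ) M).mapL q
  have h2 := (exp_series_hasSum_exp' (𝕂 := ℂ) c).smul_const v
  rw [Complex.exp_eq_exp_ℂ]
  refine HasSum.unique h1 ?_
  refine h2.congr_fun fun k => ?_
  simp [q, smul_mulVec, hpow, smul_smul]

theorem exp_mulVec_of_eq_zero (M : Matrix n n ℂ) {v : n → ℂ} (h : M *ᵥ v = 0) :
    exp M *ᵥ v = v := by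
  simpa using exp_mulVec_eigen M (c := 0) (by simpa using h)

/-- A rotation in the plane of `v` and `w`. -/
theorem exp_mulVec_rot (M : Matrix n n ℂ) {v w : n → ℂ} (θ : ℝ) (hv : M *ᵥ v = (θ : ℂ) • w)
    (hw : M *ᵥ w = -((θ : ℂ) • v)) :
    exp M *ᵥ v = (Real.cos θ : ℂ) • v + (Real.sin θ : ℂ) • w ∧
      exp M *ᵥ w = (Real.cos θ : ℂ) • w - (Real.sin θ : ℂ) • v := by
  have h1 := exp_mulVec_eigen M (v := v - Complex.I • w) (c := Complex.I * θ) (by
    rw [mulVec_sub, mulVec_smul, hv, hw]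
    funext k
    simp only [Pi.sub_apply, Pi.smul_apply, Pi.neg_apply, smul_eq_mul]
    linear_combination ((θ : ℂ) * w k) * Complex.I_mul_I)
  have h2 := exp_mulVec_eigen M (v := v + Complex.I • w) (c := -(Complex.I * θ)) (by
    rw [mulVec_add, mulVec_smul, hv, hw]
    funext k
    simp only [Pi.add_apply, Pi.smul_apply, Pi.neg_apply, smul_eq_mul]
    linear_combination ((θ : ℂ) * w k) * Complex.I_mul_I)
  rw [mul_comm Complex.I, mulVec_sub, mulVec_smul] at h1
  rw [show -(Complex.I * θ) = (((-θ : ℝ)) : ℂ) * Complex.I by push_cast; ring, mulVec_add,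
    mulVec_smul] at h2
  rw [Complex.exp_mul_I, ← Complex.ofReal_cos, ← Complex.ofReal_sin] at h1
  rw [Complex.exp_mul_I, ← Complex.ofReal_cos, ← Complex.ofReal_sin, Real.cos_neg, Real.sin_neg,
    Complex.ofReal_neg] at h2
  constructor
  · funext k
    have e1 := congrFun h1 k
    have e2 := congrFun h2 k
    simp only [Pi.sub_apply, Pi.add_apply, Pi.smul_apply, smul_eq_mul] at e1 e2 ⊢
    linear_combination e1 / 2 + e2 / 2 - (Real.sin θ : ℂ) * w k * Complex.I_mul_I
  · funext k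
    have e1 := congrFun h1 k
    have e2 := congrFun h2 k
    simp only [Pi.sub_apply, Pi.add_apply, Pi.smul_apply, smul_eq_mul] at e1 e2 ⊢
    have hI : (Complex.I : ℂ) * Complex.I = -1 := Complex.I_mul_I
    linear_combination (Complex.I / 2) * e1 - (Complex.I / 2) * e2 +
      ((exp M *ᵥ w) k - (Real.cos θ : ℂ) * w k + (Real.sin θ : ℂ) * v k) * hI

/-- The exponential of a square zero element. -/
theorem exp_sq_zero (M : Matrix n n ℂ) (h : M * M = 0) : exp M = 1 + M := by
  have hpow : ∀ k : ℕ, 2 ≤ k → M ^ k = 0 := fun k hk => by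
    obtain ⟨j, rfl⟩ := Nat.exists_eq_add_of_le hk
    rw [pow_add, pow_two, h, zero_mul]
  rw [exp_eq_tsum ℂ]
  simp only []
  rw [tsum_eq_sum (s := Finset.range 2) fun k hk => by
    rw [hpow k (not_lt.1 fun h' => hk (Finset.mem_range.2 h')), smul_zero]]
  simp [Finset.sum_range_succ]

end Vale.Agent.P225
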